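import Vale.Agent.P352.Bdl.B2

/-!
# One smeared field that annihilates the vacuum vanishes identically
-/

set_option linter.all false
set_option maxSynthPendingDepth 3

open MeasureTheory SchwartzMap Complex Filter Topology
open scoped SchwartzMap ComplexConjugate ENNReal

namespace Vale.Agent.P352

open GF (Ix V)

namespace H874

/-- A complex line in momentum space. -/
noncomputable def cln (p q : Mink) (z : ℂ) : Fin 4 → ℂ := fun j => (p j : ℂ) + z * (q j : ℂ)

lemma cln_ofReal (p q : Mink) (t : ℝ) : cln p q t = fun j => ((p + t • q) j : ℂ) := by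
  funext j
  simp only [cln, PiLp.add_apply, PiLp.smul_apply, smul_eq_mul, ofReal_add, ofReal_mul]

lemma cft_cln_ofReal (f : 𝓢(Mink, ℂ)) (p q : Mink) (t : ℝ) :
    cft f (cln p q t) = mft f (p + t • q) := by
  rw [cln_ofReal, cft_ofReal]

lemma continuous_cln (p q : Mink) : Continuous (cln p q) :=
  continuous_pi fun j => continuous_const.add (continuous_id.mul continuous_const)

lemma differentiable_cft_cln (f : 𝓢(Mink, ℂ)) (hf : HasCompactSupport f) (p q : Mink) :
    Differentiable ℂ fun z => cft f (cln p q z) := by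
  intro z₀
  have hcont : Continuous fun r : ℂ × Mink => exp (I * cdot (cln p q r.1) r.2) := by
    apply continuous_exp.comp
    apply continuous_const.mul
    have h2 : Continuous fun r : ℂ × Mink => (cln p q r.1, r.2) :=
      ((continuous_cln p q).comp continuous_fst).prodMk continuous_snd
    exact Continuous.comp (f := fun r : ℂ × Mink => (cln p q r.1, r.2))
      (g := fun r : (Fin 4 → ℂ) × Mink => cdot r.1 r.2) continuous_cdot_uncurry h2
  obtain ⟨C, hC⟩ := ((isCompact_closedBall z₀ 1).prod hf).bddAbove_image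
    (f := fun r : ℂ × Mink => ‖exp (I * cdot (cln p q r.1) r.2)‖) hcont.norm.continuousOn
  have hC' : ∀ z ∈ Metric.closedBall z₀ 1, ∀ x ∈ tsupport f,
      ‖exp (I * cdot (cln p q z) x)‖ ≤ C := by
    intro z hz x hx
    exact hC ⟨(z, x), ⟨hz, hx⟩, rfl⟩
  refine differentiableAt_integral (U := Metric.ball z₀ 1) Metric.isOpen_ball
    (F := fun z x => exp (I * cdot (cln p q z) x) * f x) (bound := fun x => C * ‖f x‖)
    ?_ ?_ ?_ ?_ (Metric.mem_ball_self one_pos)
  · intro z _
    exact (integrable_cexp_mul _ f hf).aestronglyMeasurable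
  · refine Eventually.of_forall fun x => ?_
    have : Differentiable ℂ fun z : ℂ => exp (I * cdot (cln p q z) x) * f x := by
      have h1 : Differentiable ℂ fun z : ℂ => cdot (cln p q z) x := by
        simp only [cdot, cln]
        fun_prop
      (clear * - h1; fun_prop)
    exact this.differentiableOn
  · refine Eventually.of_forall fun x z hz => ?_
    rw [norm_mul]
    by_cases hx : x ∈ tsupport f
    · gcongr
      exact hC' z (Metric.ball_subset_closedBall hz) x hx
    · simp [image_eq_zero_of_notMem_tsupport hx]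
  · exact f.integrable.norm.const_mul C

/-- The Fourier transform of a test function of compact support that vanishes on a nonempty open
set vanishes. -/
lemma mft_eq_zero_of_open (f : 𝓢(Mink, ℂ)) (hf : HasCompactSupport f) {U : Set Mink}
    (hU : IsOpen U) {p : Mink} (hp : p ∈ U) (h : ∀ r ∈ U, mft f r = 0) (q : Mink) :
    mft f q = 0 := by
  have hd := differentiable_cft_cln f hf p (q - p)
  have han : AnalyticOnNhd ℂ (fun z => cft f (cln p (q - p) z)) Set.univ :=
    hd.differentiableOn.analyticOnNhd isOpen_univ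
  have hline : Continuous fun t : ℝ => p + t • (q - p) := by fun_prop
  have hev : ∀ᶠ t : ℝ in 𝓝 0, p + t • (q - p) ∈ U := by
    have : p + (0 : ℝ) • (q - p) ∈ U := by simpa using hp
    exact hline.continuousAt.eventually (hU.mem_nhds this)
  have hfr : ∃ᶠ z : ℂ in 𝓝[≠] (0 : ℂ), cft f (cln p (q - p) z) = 0 := by
    have h1 : ∃ᶠ t : ℝ in 𝓝[≠] (0 : ℝ), cft f (cln p (q - p) t) = 0 := by
      apply Eventually.frequently
      apply eventually_nhdsWithin_of_eventually_nhds
      filter_upwards [hev] with t ht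
      rw [cft_cln_ofReal, h _ ht]
    have h2 : Tendsto (fun t : ℝ => (t : ℂ)) (𝓝[≠] 0) (𝓝[≠] 0) := by
      refine tendsto_nhdsWithin_iff.2 ⟨?_, ?_⟩
      · have := continuous_ofReal.tendsto (0 : ℝ)
        rw [ofReal_zero] at this
        exact this.mono_left nhdsWithin_le_nhds
      · filter_upwards [self_mem_nhdsWithin] with t ht
        simpa using ht
    exact h2.frequently h1
  have h3 := han.eqOn_zero_of_preconnected_of_frequently_eq_zero isPreconnected_univ
    (Set.mem_univ 0) hfr (Set.mem_univ 1)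
  simp only [Pi.zero_apply] at h3
  have h4 := cft_cln_ofReal f p (q - p) 1
  rw [ofReal_one, h3] at h4
  rw [one_smul, add_sub_cancel] at h4
  exact h4.symm

lemma eq_zero_of_mft (f : 𝓢(Mink, ℂ)) (h : ∀ p, mft f p = 0) : f = 0 := by
  have h1 : mftS f = 0 := by
    ext p
    rw [mftS_apply, h]
    rfl
  have h2 : FourierTransform.fourierCLM ℂ 𝓢(Mink, ℂ) f = 0 := by
    ext p
    have := congrArg (fun g : 𝓢(Mink, ℂ) => g (mftEquiv.symm p)) h1
    simpa [mftS] using this
  have h3 : Function.Injective (FourierTransform.fourierCLM ℂ 𝓢(Mink, ℂ)) :=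
    (FourierTransform.fourierCLE ℂ 𝓢(Mink, ℂ)).injective
  apply h3
  rw [h2, map_zero]

/-- The Fourier transform of a nonzero test function of compact support does not vanish on a
nonempty open set. -/
lemma eq_zero_of_open (f : 𝓢(Mink, ℂ)) (hf : HasCompactSupport f) {U : Set Mink}
    (hU : IsOpen U) {p : Mink} (hp : p ∈ U) (h : ∀ r ∈ U, mft f r = 0) : f = 0 :=
  eq_zero_of_mft f (mft_eq_zero_of_open f hf hU hp h)

/-- The open forward cone. -/
def opCone : Set Mink := {p | 0 < p 0 ∧ 0 < mass2 p}

lemma isOpen_opCone : IsOpen opCone :=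
  (isOpen_lt continuous_const (continuous_coord 0)).inter
    (isOpen_lt continuous_const continuous_mass2)

lemma opCone_plus {p : Mink} (hp : p ∈ opCone) : 0 < p 0 + p 1 := by
  have h1 : 0 < p 0 := hp.1
  have h2 : 0 < mass2 p := hp.2
  simp only [mass2, mdot] at h2
  have h3 : |p 1| < p 0 := by
    apply abs_lt_of_sq_lt_sq _ h1.le
    nlinarith only [h2, sq_nonneg (p 2), sq_nonneg (p 3)]
  linarith only [(abs_lt.1 h3).1]

lemma cone_ext {p q : Mink} (h0 : p 0 + p 1 = q 0 + q 1) (hne : q 0 + q 1 ≠ 0) (h2 : p 2 = q 2)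
    (h3 : p 3 = q 3) (hm : mass2 p = mass2 q) : p = q := by
  have h1 : (q 0 + q 1) * (p 0 - p 1) = (q 0 + q 1) * (q 0 - q 1) := by
    simp only [mass2, mdot, h2, h3] at hm
    rw [← h0]
    have h5 : (p 0 + p 1) * (p 0 - p 1) = (q 0 + q 1) * (q 0 - q 1) := by linarith only [hm]
    rw [h5, h0]
  have h4 := mul_left_cancel₀ hne h1
  exact mink_ext (by linarith only [h0, h4]) (by linarith only [h0, h4]) h2 h3

lemma mass2_lam {L : Ix → V} (hL : GF.IsLor L) (p : Mink) : mass2 (lam L p) = mass2 p :=
  mdot_lam hL p p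

/-- The Lorentz group acts transitively on the mass shells. -/
lemma exists_lor {p q : Mink} (hp : 0 < p 0 + p 1) (hq : 0 < q 0 + q 1)
    (hm : mass2 p = mass2 q) : ∃ L₁ L₂ L₃, GF.IsLor L₁ ∧ GF.IsLor L₂ ∧ GF.IsLor L₃ ∧
      lam L₁ (lam L₂ (lam L₃ p)) = q := by
  set t := Real.log ((q 0 + q 1) / (p 0 + p 1)) with ht
  have het : Real.exp t = (q 0 + q 1) / (p 0 + p 1) := Real.exp_log (div_pos hq hp)
  set b := (q 2 - p 2) / (q 0 + q 1) with hb
  set c := (q 3 - p 3) / (q 0 + q 1) with hc
  refine ⟨mNull b, mNull' c, mBoost t, isLor_null b, isLor_null' c, isLor_boost t, ?_⟩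
  have e3 : (lam (mBoost t) p) 0 + (lam (mBoost t) p) 1 = q 0 + q 1 := by
    rw [lam_boost]
    simp only [boost_0, boost_1]
    have h1 : Real.cosh t + Real.sinh t = Real.exp t := Real.cosh_add_sinh t
    calc _ = (p 0 + p 1) * (Real.cosh t + Real.sinh t) := by ring
      _ = _ := by rw [h1, het]; field_simp
  have e32 : (lam (mBoost t) p) 2 = p 2 := by rw [lam_boost]; simp
  have e33 : (lam (mBoost t) p) 3 = p 3 := by rw [lam_boost]; simp
  have n0 : ∀ (b : ℝ) (p : Mink), (lam (mNull b) p) 0 + (lam (mNull b) p) 1 = p 0 + p 1 := by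
    intro b p
    simp only [Fin.isValue, mNull, lam_apply, Matrix.cons_val', Matrix.cons_val_zero,
      Matrix.cons_val_fin_one, Fin.sum_univ_four, Matrix.cons_val_one, Matrix.cons_val, mul_zero,
      add_zero, mul_neg]; ring
  have n2 : ∀ (b : ℝ) (p : Mink), (lam (mNull b) p) 2 = p 2 + b * (p 0 + p 1) := by
    intro b p
    simp only [Fin.isValue, mNull, lam_apply, Matrix.cons_val', Matrix.cons_val,
      Matrix.cons_val_fin_one, Fin.sum_univ_four, Matrix.cons_val_zero, Matrix.cons_val_one,
      mul_one, mul_zero, add_zero]; ring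
  have n3 : ∀ (b : ℝ) (p : Mink), (lam (mNull b) p) 3 = p 3 := by
    intro b p
    simp [Fin.sum_univ_four, mNull]
  have n0' : ∀ (b : ℝ) (p : Mink), (lam (mNull' b) p) 0 + (lam (mNull' b) p) 1 = p 0 + p 1 := by
    intro b p
    simp only [Fin.isValue, mNull', lam_apply, Matrix.cons_val', Matrix.cons_val_zero,
      Matrix.cons_val_fin_one, Fin.sum_univ_four, Matrix.cons_val_one, Matrix.cons_val, mul_zero,
      add_zero, mul_neg]; ring
  have n2' : ∀ (b : ℝ) (p : Mink), (lam (mNull' b) p) 2 = p 2 := by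
    intro b p
    simp only [Fin.isValue, mNull', lam_apply, Matrix.cons_val', Matrix.cons_val,
      Matrix.cons_val_fin_one, Fin.sum_univ_four, Matrix.cons_val_zero, mul_zero,
      Matrix.cons_val_one, add_zero, mul_one, zero_add]
  have n3' : ∀ (b : ℝ) (p : Mink), (lam (mNull' b) p) 3 = p 3 + b * (p 0 + p 1) := by
    intro b p
    simp only [Fin.isValue, mNull', lam_apply, Matrix.cons_val', Matrix.cons_val,
      Matrix.cons_val_fin_one, Fin.sum_univ_four, Matrix.cons_val_zero, Matrix.cons_val_one,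
      mul_one, mul_zero, add_zero]; ring
  have hq' := hq.ne'
  apply cone_ext
  · rw [n0, n0', e3]
  · exact hq.ne'
  · rw [n2, n0', n2', e3, e32, hb]
    field_simp
    ring
  · rw [n3, n3', e3, e33, hc]
    field_simp
    ring
  · rw [mass2_lam (isLor_null _), mass2_lam (isLor_null' _), mass2_lam (isLor_boost _), hm]

/-- The support of a measure. -/
def spt (μ : Measure Mink) : Set Mink := {p | ∀ U : Set Mink, IsOpen U → p ∈ U → μ U ≠ 0}

variable {μ : Measure Mink} {d : ℝ}

lemma spt_lam (S : SymMeasure μ d) {L : Ix → V} (hL : GF.IsLor L) {p : Mink} (hp : p ∈ spt μ) :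
    lam L p ∈ spt μ := by
  intro U hU hm
  rw [← (S.lor L hL).measure_preimage hU.measurableSet.nullMeasurableSet]
  exact hp _ (hU.preimage (continuous_lam L)) hm

lemma spt_scale (S : SymMeasure μ d) {s : ℝ} (hs : 0 < s) {p : Mink} (hp : p ∈ spt μ) :
    s⁻¹ • p ∈ spt μ := by
  intro U hU hm hz
  have h1 := S.scale s hs U hU.measurableSet
  rw [hz, mul_zero] at h1
  exact hp _ (hU.preimage (by fun_prop : Continuous fun p : Mink => s⁻¹ • p)) hm h1

lemma mass2_smul (s : ℝ) (p : Mink) : mass2 (s • p) = s ^ 2 * mass2 p := by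
  unfold mass2
  rw [mdot_smul_left, mdot_smul_right]; ring

/-- The support of the spectral measure contains the forward cone. -/
lemma spt_cone (S : SymMeasure μ d) {p : Mink} (hp : p ∈ spt μ) (hc : p ∈ opCone) {q : Mink}
    (hq : q ∈ opCone) : q ∈ spt μ := by
  have hm : 0 < mass2 p := hc.2
  have hm' : 0 < mass2 q := hq.2
  set s := Real.sqrt (mass2 p / mass2 q) with hs
  have hs0 : 0 < s := Real.sqrt_pos.2 (div_pos hm hm')
  have hs2 : s ^ 2 = mass2 p / mass2 q := Real.sq_sqrt (div_pos hm hm').le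
  have h1 : mass2 (s⁻¹ • p) = mass2 q := by
    rw [mass2_smul, inv_pow, hs2]
    field_simp
  have h2 : 0 < (s⁻¹ • p) 0 + (s⁻¹ • p) 1 := by
    have h3 : (s⁻¹ • p) 0 + (s⁻¹ • p) 1 = s⁻¹ * (p 0 + p 1) := by
      simp only [PiLp.smul_apply, smul_eq_mul]; ring
    rw [h3]
    exact mul_pos (inv_pos.2 hs0) (opCone_plus hc)
  obtain ⟨L₁, L₂, L₃, hL₁, hL₂, hL₃, h⟩ := exists_lor h2 (opCone_plus hq) h1
  rw [← h]
  exact spt_lam S hL₁ (spt_lam S hL₂ (spt_lam S hL₃ (spt_scale S hs0 hp)))

/-- A spectral measure for which the Fourier transform of a nonzero test function of compact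
support vanishes almost everywhere is zero. -/
theorem measure_zero (S : SymMeasure μ d) (hd : 1 < d) (f : 𝓢(Mink, ℂ))
    (hf : HasCompactSupport f) (hf0 : f ≠ 0) (h : ∀ᵐ p ∂μ, mft f p = 0) : μ = 0 := by
  by_contra hne
  have hpos : μ opCone ≠ 0 := by
    intro hz
    apply hne
    rw [← Measure.measure_univ_eq_zero]
    have hcov : (Set.univ : Set Mink) ⊆ (fwdConeᶜ ∪ {p | mass2 p = 0}) ∪ opCone := by
      intro p _
      by_cases h1 : p ∈ fwdCone
      · by_cases h2 : mass2 p = 0
        · exact Or.inl (Or.inr h2)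
        · refine Or.inr ?_
          have h3 : 0 ≤ mass2 p := h1.2
          have h4 : 0 < mass2 p := lt_of_le_of_ne h3 (Ne.symm h2)
          refine ⟨?_, h4⟩
          have h5 : 0 ≤ p 0 := h1.1
          rcases h5.lt_or_eq with h6 | h6
          · exact h6
          · exfalso
            simp only [mass2, mdot, ← h6] at h4
            nlinarith only [h4, sq_nonneg (p 1), sq_nonneg (p 2), sq_nonneg (p 3)]
      · exact Or.inl (Or.inl h1)
    exact measure_mono_null hcov (measure_union_null (measure_union_null S.cone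
      (S.null_zero hd)) hz)
  obtain ⟨p, hp, hpn⟩ := exists_mem_forall_mem_nhdsWithin_pos_measure hpos
  have hps : p ∈ spt μ := by
    intro U hU hm hz
    have := hpn U (mem_nhdsWithin_of_mem_nhds (hU.mem_nhds hm))
    exact this.ne' hz
  have hvan : ∀ q ∈ opCone, mft f q = 0 := by
    intro q hq
    by_contra hq0
    have hqs := spt_cone S hps hp hq
    have hop : IsOpen {r : Mink | mft f r ≠ 0} := isOpen_ne_fun (continuous_mft f) continuous_const
    exact hqs _ hop hq0 h
  exact hf0 (eq_zero_of_open f hf isOpen_opCone hp hvan)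

end H874

open H874

variable {D : Type*} [NormedAddCommGroup D] [InnerProductSpace ℂ D] {Q : GF.Theory D}
  {T : Ix → Ix → GF.Fld D} {A : GF.Fld D} {d : ℝ}

/-- A scalar field of dimension greater than one for which a single nonzero smeared operator with
compactly supported test function annihilates the vacuum annihilates the vacuum. -/
theorem PField.one_vac (hA : PField Q T A d) (hd : 1 < d) (f : 𝓢(Mink, ℂ))
    (hf : HasCompactSupport f) (hf0 : f ≠ 0) (h : A (fl f) Q.vac = 0) (g : 𝓢(Mink, ℂ)) :
    A (fl g) Q.vac = 0 := by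
  obtain ⟨μ, hμ, htwo⟩ := hA.exists_sym
  have h1 := htwo f f
  rw [h, inner_zero_left] at h1
  have h2 : (fun p => conj (mft f p) * mft f p) = fun p => ((‖mft f p‖ ^ 2 : ℝ) : ℂ) := by
    funext p
    rw [mul_comm, mul_conj, normSq_eq_norm_sq]
  rw [h2] at h1
  have h3 : ∫ p, ‖mft f p‖ ^ 2 ∂μ = 0 := by
    rw [integral_complex_ofReal] at h1
    exact_mod_cast h1.symm
  have hint : Integrable (fun p => ‖mft f p‖ ^ 2) μ := (mft_memLp hμ.temp f).integrable_norm_pow
    two_ne_zero
  rw [integral_eq_zero_iff_of_nonneg (fun p => by positivity) hint] at h3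
  have h4 : ∀ᵐ p ∂μ, mft f p = 0 := by
    filter_upwards [h3] with p hp
    have : ‖mft f p‖ ^ 2 = 0 := hp
    exact norm_eq_zero.1 (pow_eq_zero_iff two_ne_zero |>.1 this)
  have h5 := H874.measure_zero hμ hd f hf hf0 h4
  have h6 := htwo g g
  rw [h5, integral_zero_measure] at h6
  exact inner_self_eq_zero.1 h6

/-- A scalar field of dimension greater than one for which a single nonzero smeared operator with
compactly supported test function annihilates the vacuum vanishes. -/
theorem PField.one_smeared (hA : PField Q T A d) (hd : 1 < d) (f : 𝓢(Mink, ℂ))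
    (hf : HasCompactSupport f) (hf0 : f ≠ 0) (h : A (fl f) Q.vac = 0) (g : 𝓢(Mink, ℂ)) (v : D) :
    A (fl g) v = 0 :=
  hA.op_zero (hA.one_vac hd f hf hf0 h) g v

end Vale.Agent.P352
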